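import Vale.Agent.P154.Q.KronMv

namespace Vale.Agent.P154N

open MvPolynomial

/-- the ring operations needed to write down the certificate polynomials -/
structure Ops (α : Type) where
  add : α → α → α
  mul : α → α → α
  sub : α → α → α
  cst : ℤ → α

def powG {α : Type} (O : Ops α) (a : α) : ℕ → α
  | 0 => O.cst 1
  | n + 1 => O.mul a (powG O a n)

section generic
variable {α : Type} (O : Ops α)

def sum3 (a b c : α) : α := O.add (O.add a b) c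

/-- twice the quadratic invariant, homogenised with the sum `s` -/
def a2G (v0 v1 v2 s : α) : α :=
  O.sub (O.mul (O.cst 3) (sum3 O (O.mul v0 v0) (O.mul v1 v1) (O.mul v2 v2))) (O.mul s s)

/-- twice the cubic invariant, homogenised -/
def A2G (v0 v1 v2 s : α) : α :=
  O.add (O.sub (O.mul (O.cst 9) (sum3 O (O.mul v0 (O.mul v0 v0)) (O.mul v1 (O.mul v1 v1))
      (O.mul v2 (O.mul v2 v2))))
    (O.mul (O.cst 9) (O.mul s (sum3 O (O.mul v0 v0) (O.mul v1 v1) (O.mul v2 v2)))))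
    (O.mul (O.cst 2) (O.mul s (O.mul s s)))

/-- `4000` times the cone functional, homogenised (degree four) -/
def O4G (v0 v1 v2 s : α) : α :=
  O.sub (O.add (O.mul (O.cst 4000) (O.mul (A2G O v0 v1 v2 s) s))
      (O.mul (O.cst 972) (O.mul (a2G O v0 v1 v2 s) (O.mul s s))))
    (O.mul (O.cst 2150) (O.mul (a2G O v0 v1 v2 s) (a2G O v0 v1 v2 s)))

/-- `m (c0 Y^6 + c1 t Y^5 + ... + c5 t^5 Y) + e t^6` -/
def homG (m c0 c1 c2 c3 c4 c5 e : ℤ) (t Y : α) : α :=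
  O.add (O.mul (O.cst m) (O.mul Y
    (O.add (O.mul (O.cst c0) (powG O Y 5)) (O.mul t
    (O.add (O.mul (O.cst c1) (powG O Y 4)) (O.mul t
    (O.add (O.mul (O.cst c2) (powG O Y 3)) (O.mul t
    (O.add (O.mul (O.cst c3) (powG O Y 2)) (O.mul t
    (O.add (O.mul (O.cst c4) Y) (O.mul t (O.cst c5)))))))))))))
    (O.mul (O.cst e) (powG O t 6))

def U1G (t Y : α) : α := homG O 17 1 (-1) 1 (-1) 1 (-1) 28 t Y
def L2G (t Y : α) : α := homG O 100 1 (-2) 3 (-4) 5 (-6) 571 t Y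
def U3G (t Y : α) : α := homG O 50 1 (-3) 6 (-10) 15 (-21) 2767 t Y

/-- `34 Y^8` times the upper bound for one term of the first average; `S, Q` are the first two
power sums of the products -/
def f1G (S Q Y : α) : α :=
  O.sub (O.mul (O.cst 27) (O.mul Q (U1G O (O.sub (O.mul (O.cst 3) S) Y) Y)))
    (O.mul (O.cst 51) (O.mul S (powG O Y 7)))

/-- `68000 Y^10` times the lower bound for one term of the second average -/
def f2G (S Q C Y : α) : α :=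
  O.add (O.sub (O.sub
    (O.mul (O.cst 165240) (O.mul C (O.mul (L2G O (O.sub (O.mul (O.cst 3) S) Y) Y) Y)))
    (O.mul (O.cst 181656) (O.mul Q (O.mul (U1G O (O.sub (O.mul (O.cst 3) S) Y) Y) (O.mul Y Y)))))
    (O.mul (O.cst 532899) (O.mul (O.mul Q Q) (U3G O (O.sub (O.mul (O.cst 3) S) Y) Y))))
    (O.mul (O.cst 248778) (O.mul S (powG O Y 9)))

def SyG (a0 a1 a2 b0 b1 b2 : α) : α := sum3 O (O.mul a0 b0) (O.mul a1 b1) (O.mul a2 b2)
def QyG (a0 a1 a2 b0 b1 b2 : α) : α :=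
  sum3 O (O.mul (O.mul a0 b0) (O.mul a0 b0)) (O.mul (O.mul a1 b1) (O.mul a1 b1))
    (O.mul (O.mul a2 b2) (O.mul a2 b2))
def CyG (a0 a1 a2 b0 b1 b2 : α) : α :=
  sum3 O (O.mul (O.mul a0 b0) (O.mul (O.mul a0 b0) (O.mul a0 b0)))
    (O.mul (O.mul a1 b1) (O.mul (O.mul a1 b1) (O.mul a1 b1)))
    (O.mul (O.mul a2 b2) (O.mul (O.mul a2 b2) (O.mul a2 b2)))

def t1G (a0 a1 a2 b0 b1 b2 Y : α) : α :=
  f1G O (SyG O a0 a1 a2 b0 b1 b2) (QyG O a0 a1 a2 b0 b1 b2) Y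
def t2G (a0 a1 a2 b0 b1 b2 Y : α) : α :=
  f2G O (SyG O a0 a1 a2 b0 b1 b2) (QyG O a0 a1 a2 b0 b1 b2) (CyG O a0 a1 a2 b0 b1 b2) Y

/-- sum over the six relabelings of the second vector -/
def six (F : α → α → α → α) (b0 b1 b2 : α) : α :=
  O.add (O.add (O.add (O.add (O.add (F b0 b1 b2) (F b1 b0 b2)) (F b2 b1 b0)) (F b0 b2 b1))
    (F b1 b2 b0)) (F b2 b0 b1)

/-- `408000 (s t)^8` times the slack of the first inequality -/
def G1G (p0 p1 p2 s r0 r1 r2 t : α) : α :=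
  O.sub (O.sub (O.sub (O.add
    (O.mul (O.cst 204000) (O.mul (a2G O p0 p1 p2 s) (O.mul (powG O s 6) (powG O t 8))))
    (O.mul (O.cst 204000) (O.mul (a2G O r0 r1 r2 t) (O.mul (powG O t 6) (powG O s 8)))))
    (O.mul (O.cst 51) (O.mul (O.mul (O4G O p0 p1 p2 s) (powG O s 4))
      (O.mul (a2G O r0 r1 r2 t) (powG O t 6)))))
    (O.mul (O.cst 102) (O.mul (O.mul (a2G O p0 p1 p2 s) (powG O s 6))
      (O.mul (a2G O r0 r1 r2 t) (powG O t 6)))))
    (O.mul (O.cst 2000) (six O (fun b0 b1 b2 => t1G O p0 p1 p2 b0 b1 b2 (O.mul s t)) r0 r1 r2))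

/-- `408000 (s t)^10` times the slack of the second inequality -/
def G2G (p0 p1 p2 s r0 r1 r2 t : α) : α :=
  O.sub (six O (fun b0 b1 b2 => t2G O p0 p1 p2 b0 b1 b2 (O.mul s t)) r0 r1 r2)
    (O.mul (O.cst 102) (O.mul (O.mul (O4G O p0 p1 p2 s) (powG O s 6))
      (O.mul (O.sub (O.mul t t) (O.mul (O.cst 2) (a2G O r0 r1 r2 t))) (powG O t 8))))

end generic

/-- real operations -/
noncomputable def opsR : Ops ℝ :=
  ⟨fun a b => a + b, fun a b => a * b, fun a b => a - b, fun c => (c : ℝ)⟩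

/-- formal differences of two elements of a semiring -/
def opsP (S : Type) [CommSemiring S] : Ops (S × S) :=
  ⟨fun u v => (u.1 + v.1, u.2 + v.2), fun u v => (u.1 * v.1 + u.2 * v.2, u.1 * v.2 + u.2 * v.1),
    fun u v => (u.1 + v.2, u.2 + v.1), fun c => ((c.toNat : S), ((-c).toNat : S))⟩

/-- degree bookkeeping: first pair of variables, second pair of variables -/
def opsD : Ops (ℕ × ℕ) :=
  ⟨fun k l => (max k.1 l.1, max k.2 l.2), fun k l => (k.1 + l.1, k.2 + l.2),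
    fun k l => (max k.1 l.1, max k.2 l.2), fun _ => (0, 0)⟩

section forms
variable {S : Type} [CommSemiring S]

def lfP (a b c : ℕ) (v : Fin 4 → S) : S × S := ((a : S) + (b : S) * v 0 + (c : S) * v 1, 0)
def lfR (a b c : ℕ) (v : Fin 4 → S) : S × S := ((a : S) + (b : S) * v 2 + (c : S) * v 3, 0)

def T1S (v : Fin 4 → S) : S × S :=
  G1G (opsP S) (lfP 1 0 0 v) (lfP 1 1 0 v) (lfP 1 1 1 v) (lfP 3 2 1 v)
    (lfR 168 101 34 v) (lfR 168 101 67 v) (lfR 168 134 67 v) (lfR 504 336 168 v)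

def T2S (v : Fin 4 → S) : S × S :=
  (opsP S).mul ((opsP S).mul (lfP 3 2 1 v) (lfR 504 336 168 v))
    (G2G (opsP S) (lfP 1 0 0 v) (lfP 1 1 0 v) (lfP 1 1 1 v) (lfP 3 2 1 v)
      (lfR 168 101 34 v) (lfR 168 101 67 v) (lfR 168 134 67 v) (lfR 504 336 168 v))

def TOS (v : Fin 4 → S) : S × S :=
  O4G (opsP S) (lfR 168 101 34 v) (lfR 168 101 67 v) (lfR 168 134 67 v) (lfR 504 336 168 v)

end forms

/-- the packed comparison used in `kron_le` -/
def chkN (T : (Fin 4 → ℕ) → ℕ × ℕ) (d b : ℕ) : Bool :=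
  decide ((T fun _ => 1).1 < 2 ^ (b - 1)) && decide ((T fun _ => 1).2 < 2 ^ (b - 1)) &&
  decide (Nat.land ((T fun i => (2 ^ b) ^ ((d + 1) ^ (i : ℕ))).1
        + 2 ^ (b - 1) * (((2 ^ b) ^ ((d + 1) ^ 4) - 1) / (2 ^ b - 1))
        - (T fun i => (2 ^ b) ^ ((d + 1) ^ (i : ℕ))).2)
      (2 ^ (b - 1) * (((2 ^ b) ^ ((d + 1) ^ 4) - 1) / (2 ^ b - 1)))
      = 2 ^ (b - 1) * (((2 ^ b) ^ ((d + 1) ^ 4) - 1) / (2 ^ b - 1)))

end Vale.Agent.P154N
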